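import Vale.Agent.Results.P240.A_alternating_blocks
import Vale.Agent.Results.P240.B_covered_blocks

open Vale.Agent.Lib.P240

namespace Vale.Agent.Results.P240.AAA_union

/-- Both block theorems: a permutation group on a finite set permuting the fibres of a map has
nonzero reduced homology of `A_2(G)` over `F_3`, resp. over `F_q`, when all fibres are alternating
blocks of admissible size, resp. when every fibre is a covered block. -/
theorem result {Ω ι : Type*} [Fintype Ω] [DecidableEq Ω] (G : Subgroup (Equiv.Perm Ω)) (B : Ω → ι)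
    (hB : ∀ g ∈ G, ∀ x y, B x = B y → B (g x) = B (g y)) :
    ((∀ (i : ι) (g : Equiv.Perm Ω), Equiv.Perm.sign g = 1 → (∀ x, g x ≠ x → B x = i) → g ∈ G) →
      (∀ x : Ω, Nat.card {y // B y = B x} ≠ 1 ∧ Nat.card {y // B y = B x} ≠ 2 ∧
        Nat.card {y // B y = B x} ≠ 4) →
      ¬ ReducedAcyclic (ZMod 3) (QuillenPoset G 2)) ∧
    (∀ {q r : ℕ} (_ : q.Prime) (_ : r.Prime) (_ : q ≠ 2) (_ : r ≠ 2) (_ : q ≠ r)
      (_ : ∀ x : Ω, CoveredBlock q r G B (B x)),
      ¬ ReducedAcyclic (ZMod q) (QuillenPoset G 2)) :=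
  ⟨fun hAlt hsize => Vale.Agent.Results.P240.A_alternating_blocks.result G B hB hAlt hsize,
    fun hq hr hq2 hr2 hqr H =>
      Vale.Agent.Results.P240.B_covered_blocks.result G B hB hq hr hq2 hr2 hqr H⟩

end Vale.Agent.Results.P240.AAA_union
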